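import Crest.Agent.X261.Eqv.B2
import Crest.Agent.X261.Psh.Sko71

/-!
# Row 261, package EQV (helper51), file `Typ`: almost every point has good slices
-/

set_option autoImplicit false
set_option linter.unusedSectionVars false
set_option linter.dupNamespace false

open Set Filter Topology MeasureTheory Metric
open scoped ENNReal

namespace Crest.Agent.X261.Eq51

open Crest.Agent.X261.Ans Crest.Agent.X261.Psh Crest.Agent.X261.Eqv

noncomputable section

variable {E : Type} [NormedAddCommGroup E] [NormedSpace ℂ E] [FiniteDimensional ℂ E]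
  [MeasurableSpace E] [BorelSpace E] {μ : Measure E} [μ.IsAddHaarMeasure]
  {M : Type} [TopologicalSpace M] {A : HA E M} {G : Type} [Group G] [MulAction G M]

/-- Skoda: a weight that is finite at `y` has zero Lelong number there -/
theorem li_of_ne_bot {wt : A.ι → E → ℝ} (hw : WB A wt) {u : M → EReal} (hu : PW A wt u) {y : M}
    (hy : u y ≠ ⊥) {N : ℝ} (hN : 0 < N) : LI μ A (fun x => eN N (u x)) y := by
  obtain ⟨i, hi⟩ := A.cover y
  have hz := (A.e i).map_source hi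
  have h := (li_iff (μ := μ) (u := u) hw hN hz).2 (Sk.exists_nhds μ (hu i)
    ((A.e i).open_target.mem_nhds hz) (by
      rw [(A.e i).left_inv hi]
      simp [hy]) hN.le)
  rwa [(A.e i).left_inv hi] at h

variable (T : TP μ A G)

theorem good_of_mem {y : M} (hy : y ∈ T.M0) : T.Good y := fun _ hN =>
  li_of_ne_bot T.wb T.φ_psh (T.M0_fin y hy) hN

/-- every slice is a weight -/
theorem sl_psh (k : ℕ) (y : M) : PW A T.wt (T.sl k y) := by
  intro i
  obtain ⟨j, hj⟩ := A.cover y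
  have h := (((T.u_psh k (i, j)).slice_left (A.e j y)).add_const
    (-(T.φ y).toReal - T.wt j (A.e j y))).mono (D' := (A.e i).target)
    fun z hz => ⟨hz, (A.e j).map_source hj⟩
  refine h.congr fun z _ => ?_
  show T.u k ((A.e i).symm z, (A.e j).symm (A.e j y)) + ((T.wt i z + T.wt j (A.e j y) : ℝ) : EReal)
    + _ = T.u k ((A.e i).symm z, y) + _ + _
  rw [(A.e j).left_inv hj, add_assoc, add_assoc, ← EReal.coe_add, ← EReal.coe_add]
  congr 2
  ring

theorem typ_of {y : M} (hy : y ∈ T.M0)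
    (h : ∀ k, AE μ A fun x => T.u k (x, y) = T.Xi k x y + T.φ x + T.φ y) : T.Typ y := by
  have heq : ∀ k, AE μ A fun x => T.sl k y x = T.Xi k x y + T.φ x := fun k =>
    (h k).mono fun x hx => by
      rw [TP.sl, hx]
      conv_lhs => rw [T.φ_real hy]
      rw [add_assoc, EReal.toReal_coe, ← EReal.coe_add, add_neg_cancel, EReal.coe_zero, add_zero]
  refine ⟨hy, good_of_mem T hy, fun k => sl_psh T k y, fun k x => ?_, heq, fun k => ?_⟩
  · have := (sl_psh T k y).le_of_ae (μ := μ) T.φ_psh (x := x) univ_mem 0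
      (((heq k).and T.M0_ae).mono fun w hw _ => by
        rw [hw.1, EReal.coe_zero, add_zero]
        exact (add_le_add (T.Xi_le k w hw.2 y hy) le_rfl).trans (by rw [zero_add]))
    simpa using this
  · obtain ⟨c, hc, hp⟩ := T.pole k
    refine ⟨c, hc, fun i hi => ?_⟩
    have hz := (A.e i).map_source hi
    obtain ⟨C, V, hV, hp⟩ := hp i _ hz
    obtain ⟨C', hC'⟩ := T.wb i _ hz
    obtain ⟨s, hs, hso, hsz⟩ := _root_.mem_nhds_iff.1
      (inter_mem hV (hC'.and (HA.ev_target hi)))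
    refine ⟨C + 2 * C', ?_⟩
    filter_upwards [mem_nhdsWithin_of_mem_nhds (hso.mem_nhds hsz), self_mem_nhdsWithin]
      with z hzs hne
    have hne' : z - A.e i y ≠ 0 := sub_ne_zero.2 hne
    have hcont : ContinuousAt (fun w : E => c * Real.log ‖w - A.e i y‖ + (C + C')) z :=
      (continuousAt_const.mul ((continuousAt_id.sub continuousAt_const).norm.log
        (norm_ne_zero_iff.2 hne'))).add continuousAt_const
    have h1 := (sl_psh T k y i).le_of_ae μ (A.e i).open_target (hs hzs).2.2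
      (g := fun w => ((c * Real.log ‖w - A.e i y‖ + (C + C') : ℝ) : EReal))
      (continuous_coe_real_ereal.continuousAt.comp hcont).upperSemicontinuousAt
      (inter_mem (hso.mem_nhds hzs) (isOpen_compl_singleton.mem_nhds hne))
      (by
        filter_upwards [heq k i, T.M0_ae i] with w h1 h2 hw
        have hwt := (hs hw.1).2.2
        have hw0 : 0 < ‖w - A.e i y‖ := norm_pos_iff.2 (sub_ne_zero.2 hw.2)
        have h3 := hp _ (mem_of_mem_nhds hV) w (hs hw.1).1 (by rwa [(A.e i).left_inv hi])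
          (h2 hwt) _ hw0 (by rw [norm_sub_rev])
        rw [(A.e i).left_inv hi, T.Xi_symm k y hy _ (h2 hwt), ← h1 hwt] at h3
        exact le_coe_mono (add_le_coe h3 le_rfl) (by linarith [(abs_le.1 (hs hw.1).2.1).2]))
    rw [add_coe_le_iff] at h1
    exact le_coe_mono h1 (by linarith [(abs_le.1 (hs hzs).2.1).1])

/-- **the field `Out.typ`** -/
theorem typ [Countable A.ι] : AE μ A T.Typ :=
  (T.M0_ae.and (ae_all fun k => (T.u_eq k).fub)).mono fun _ hy => typ_of T hy.1 hy.2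

theorem near_of_good {x : M} (hx : T.Good x) (k : ℕ) : T.Near k x := by
  obtain ⟨N₀, h⟩ := T.exists_near k
  have h1 : (0 : ℝ) < max N₀ 1 := lt_max_of_lt_right one_pos
  exact h _ (le_max_left _ _) h1 x (hx _ h1)

/-- **the field `Out.near`** -/
theorem near {F : Type*} [NormedAddCommGroup F] [NormedSpace ℂ F] (L : Loc.Leaf G M F)
    (act : ∀ g x, L.act g x = g • x)
    (R_sub : ∀ x ∈ L.S, ∀ y ∈ L.S, L.R x y → (x, y) ∈ T.R0) :
    ∀ x ∈ L.S, T.Good x → ∀ (k : ℕ) (a : ℝ), ∃ W ∈ 𝓝 x, ∀ g : G, ∀ y ∈ W, ∀ z ∈ W,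
      L.R (g • y) z → ∀ x₁ ∈ W ∩ T.M0, ∀ x₂ ∈ W ∩ T.M0, T.Xi k (g • x₁) x₂ ≤ (-a : ℝ) := by
  intro x hx hg k a
  obtain ⟨b, hb⟩ := T.tri3Q k a
  obtain ⟨W₀, hW₀, h₀⟩ := near_of_good T hg (k + 2) b
  obtain ⟨W, hW, hWo, hxW⟩ := _root_.mem_nhds_iff.1 (inter_mem hW₀ (L.opn.mem_nhds hx))
  refine ⟨W, hWo.mem_nhds hxW, fun g y hy z hz hR x₁ h₁ x₂ h₂ => ?_⟩
  have hgy : g • y ∈ L.S := act g y ▸ L.sinv g y (hW hy).2
  obtain ⟨x', hx', y', hy', hxy⟩ := TP.mem_cl.1 (R_sub _ hgy z (hW hz).2 hR (k + 2) b)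
    ((fun w => g⁻¹ • w) ⁻¹' W) ((T.smul_cont g⁻¹).continuousAt.preimage_mem_nhds
      (hWo.mem_nhds (by simpa using hy))) W (hWo.mem_nhds hz)
  refine hb _ (T.M0_inv g _ h₁.2) x' hx'.2 y' hy'.2 x₂ h₂.2 ?_ hxy
    (h₀ y' ⟨(hW hy'.1).1, hy'.2⟩ x₂ ⟨(hW h₂.1).1, h₂.2⟩)
  have h3 := T.Xi_inv (k + 2) g x₁ h₁.2 _ (T.M0_inv g⁻¹ x' hx'.2)
  rw [smul_inv_smul] at h3
  rw [h3]
  exact h₀ x₁ ⟨(hW h₁.1).1, h₁.2⟩ _ ⟨(hW hx'.1).1, T.M0_inv g⁻¹ x' hx'.2⟩

end

end Crest.Agent.X261.Eq51
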